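import Vale.Agent.P130.Full.Main
import Vale.Agent.P130.Full.Encoding
import Vale.Agent.P130.Full.Space
import Vale.Agent.P130.Full.Step

/-!
An invertible measure-preserving transformation of a standard nonatomic probability space
with simple Lebesgue spectrum: some mean-zero function has an orbit which is an orthonormal
basis of the mean-zero square-integrable functions.
-/

namespace Vale.Agent.Results.P130.SimpleLebesgueSpectrum

open MeasureTheory
open scoped ComplexConjugate

theorem result :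
    ∃ (Ω : Type) (_ : MeasurableSpace Ω) (μ : Measure Ω) (T : Ω ≃ᵐ Ω),
      StandardBorelSpace Ω ∧ IsProbabilityMeasure μ ∧ (∀ ω, μ {ω} = 0) ∧ MeasurePreserving T μ μ ∧
      ∃ f : Lp ℂ 2 μ,
        ∫ ω, f ω ∂μ = 0 ∧
        (∀ m n : ℤ, ∫ ω, f (((T.toEquiv : Equiv.Perm Ω) ^ m) ω) *
            conj (f (((T.toEquiv : Equiv.Perm Ω) ^ n) ω)) ∂μ = if m = n then 1 else 0) ∧
        ∀ g : Lp ℂ 2 μ, ∫ ω, g ω ∂μ = 0 →
          (∀ n : ℤ, ∫ ω, g ω * conj (f (((T.toEquiv : Equiv.Perm Ω) ^ n) ω)) ∂μ = 0) → g = 0 :=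
  Vale.Agent.P130.Full.main Vale.Agent.P130.Full.encoding Vale.Agent.P130.Full.space Vale.Agent.P130.Full.step

end Vale.Agent.Results.P130.SimpleLebesgueSpectrum
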